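import Vale.Agent.P249.General
import Vale.Agent.P249.Lower6

/-!
# P249: dimension reduction for finite subsets of `L_p`, `p > 2`

Both an upper bound (nearly linear) and a lower bound (of order `(log n / log log n) ^ (p / 2)`)
for `d_p(n, D)` in the range `p > 2`, with the dependence of the lower bound on `D`.
-/

namespace Vale.Agent.Results.P249.TwoSidedUniform

open Finset MeasureTheory

universe u

/-- The distance of `ℓ_p^d`. -/
noncomputable def lpDist (p : ℝ) {d : ℕ} (x y : Fin d → ℝ) : ℝ :=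
  (∑ k, |x k - y k| ^ p) ^ (1 / p)

/-- Every `n`-point subset of every space `L_p(μ)` admits a map into `ℓ_p^d` with distortion at
most `D`. The `n` distinct points are listed as an injective family `X`. -/
def Reducible (p D : ℝ) (n d : ℕ) : Prop :=
  ∀ (Ω : Type u) [MeasurableSpace Ω] (μ : Measure Ω)
    (X : Fin n → Lp ℝ (ENNReal.ofReal p) μ), Function.Injective X →
    ∃ f : Fin n → Fin d → ℝ, ∃ s : ℝ, 0 < s ∧ ∀ i j,
      s * ‖X i - X j‖ ≤ lpDist p (f i) (f j) ∧
      lpDist p (f i) (f j) ≤ D * s * ‖X i - X j‖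

/-- `d_p(n, D)`: the least dimension that suffices. -/
noncomputable def minDim (p D : ℝ) (n : ℕ) : ℕ :=
  sInf {d | Reducible.{u} p D n d}

/-- For every `2 < p < ∞` there is a constant `c > 0` such that for every `D > 1` there is a
constant `C` with
`(c / D ^ p) (log n / log log n) ^ (p / 2) ≤ d_p(n, D) ≤ C n (log n) ^ (p + 3)` for all
`n ≥ 16`. -/
theorem result (p : ℝ) (hp : 2 < p) :
    ∃ c : ℝ, 0 < c ∧ ∀ D : ℝ, 1 < D → ∃ C : ℝ, 0 < C ∧ ∀ n : ℕ, 16 ≤ n →
      Reducible.{u} p D n (minDim.{u} p D n) ∧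
      c / D ^ p * (Real.log n / Real.log (Real.log n)) ^ (p / 2) ≤ (minDim.{u} p D n : ℝ) ∧
      (minDim.{u} p D n : ℝ) ≤ C * n * (Real.log n) ^ (p + 3) := by
  obtain ⟨c, hc, hlow⟩ := Vale.Agent.P249.lower_uniform.{u} p hp.le
  refine ⟨c, hc, fun D hD => ?_⟩
  obtain ⟨C, hC, hmain⟩ := Vale.Agent.P249.general.{u} p D (by linarith) hD
  refine ⟨C, hC, fun n hn => ?_⟩
  obtain ⟨d, hd, hred⟩ := hmain n (by omega)
  have hred' : Reducible.{u} p D n d := hred
  have hmem : Reducible.{u} p D n (minDim.{u} p D n) :=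
    Nat.sInf_mem (s := {d | Reducible.{u} p D n d}) ⟨d, hred'⟩
  refine ⟨hmem, hlow D (by linarith) n hn _ hmem, ?_⟩
  have h1 : minDim.{u} p D n ≤ d := Nat.sInf_le hred'
  have h2 : (minDim.{u} p D n : ℝ) ≤ d := by exact_mod_cast h1
  exact h2.trans hd

end Vale.Agent.Results.P249.TwoSidedUniform
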